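import Mathlib

/-!
# Row 255 (helper36): a group acting freely and cocompactly on a simply connected poset is finitely
presented; Morse data make a poset simply connected
-/

set_option autoImplicit false
set_option linter.unusedSectionVars false

open Set

noncomputable section

namespace Crest.Agent.N255.Fp

variable {P : Type} [PartialOrder P]

/-- a non abelian cocycle on the order complex -/
def Coc {Γ : Type} [Group Γ] (θ : P → P → Γ) : Prop :=
  ∀ a b c, a ≤ b → b ≤ c → θ a b * θ b c = θ a c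

/-- a developing map -/
def Dev {Γ : Type} [Group Γ] (θ : P → P → Γ) (ψ : P → Γ) : Prop := ∀ a c, a ≤ c → ψ a * θ a c = ψ c

/-- the comparability graph is connected -/
def Conn (P : Type) [PartialOrder P] : Prop :=
  ∀ A : P → Prop, (∀ a c, a ≤ c → (A a ↔ A c)) → ∀ a b, A a → A b

/-- every cocycle is a coboundary -/
def SC (P : Type) [PartialOrder P] : Prop :=
  ∀ (Γ : Type) [Group Γ] (θ : P → P → Γ), Coc θ → ∃ ψ, Dev θ ψ

theorem Dev.uniq (h : Conn P) {Γ : Type} [Group Γ] {θ : P → P → Γ} {ψ ψ' : P → Γ} (h1 : Dev θ ψ)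
    (h2 : Dev θ ψ') {a : P} (e : ψ a = ψ' a) (b : P) : ψ b = ψ' b :=
  h (fun c => ψ c = ψ' c) (fun a c hac => by
    rw [← h1 a c hac, ← h2 a c hac]; exact mul_left_inj _ |>.symm) a b e

section fp

variable (G : Type) [Group G] [MulAction G P]

/-- the representative of the orbit -/
def rp (a : P) : P := (Quotient.mk (MulAction.orbitRel G P) a).out

theorem exists_ga (a : P) : ∃ g : G, g • rp G a = a := by
  have : (MulAction.orbitRel G P).r (rp G a) a := Quotient.exact (Quotient.out_eq _)
  exact MulAction.orbitRel_apply.1 ((MulAction.orbitRel G P).symm this)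

/-- the group coordinate -/
def ga (a : P) : G := (exists_ga G a).choose

theorem ga_rp (a : P) : ga G a • rp G a = a := (exists_ga G a).choose_spec

theorem rp_smul (g : G) (a : P) : rp G (g • a) = rp G a :=
  congrArg Quotient.out (Quotient.sound (MulAction.orbitRel_apply.2 (MulAction.mem_orbit a g)))

theorem inv_ga (a : P) : (ga G a)⁻¹ • a = rp G a := by
  rw [inv_smul_eq_iff, ga_rp]

theorem rp_rp (a : P) : rp G (rp G a) = rp G a := by
  conv_lhs => rw [← inv_ga G a]
  rw [rp_smul]

/-- edges up to the action -/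
def Ed : Type := {p : P × P // p.1 ≤ p.2 ∧ rp G p.2 = p.2}

variable {G}

theorem ga_smul (free : ∀ (g : G) (a : P), g • a = a → g = 1) (g : G) (a : P) :
    ga G (g • a) = g * ga G a := by
  have h := ga_rp G (g • a)
  rw [rp_smul] at h
  have : ((g * ga G a)⁻¹ * ga G (g • a)) • rp G a = rp G a := by
    rw [mul_smul, h, inv_smul_eq_iff, mul_smul, ga_rp]
  exact (inv_mul_eq_one.1 (free _ _ this)).symm

theorem ga_rp_one (free : ∀ (g : G) (a : P), g • a = a → g = 1) (a : P) : ga G (rp G a) = 1 := by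
  have h := ga_rp G (rp G a)
  rw [rp_rp] at h
  exact free _ _ h

theorem fin_rp (fin : Finite (MulAction.orbitRel.Quotient G P)) : {c : P | rp G c = c}.Finite :=
  (finite_range fun q : MulAction.orbitRel.Quotient G P => q.out).subset fun _ hc => ⟨_, hc⟩

open Classical in
/-- the tautological cochain -/
def th (mono : ∀ (g : G) (a b : P), a ≤ b → g • a ≤ g • b) (a c : P) : FreeGroup (Ed (P := P) G) :=
  if h : a ≤ c then FreeGroup.of ⟨((ga G c)⁻¹ • a, (ga G c)⁻¹ • c), mono _ _ _ h, by
    rw [inv_ga, rp_rp]⟩ else 1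

theorem th_smul (mono : ∀ (g : G) (a b : P), a ≤ b → g • a ≤ g • b)
    (free : ∀ (g : G) (a : P), g • a = a → g = 1) (g : G) {a c : P} (h : a ≤ c) :
    th mono (g • a) (g • c) = th mono a c := by
  simp only [th, dif_pos h, dif_pos (mono g _ _ h), ga_smul free, mul_inv_rev, mul_smul,
    inv_smul_smul]

theorem th_of (mono : ∀ (g : G) (a b : P), a ≤ b → g • a ≤ g • b)
    (free : ∀ (g : G) (a : P), g • a = a → g = 1) (e : Ed (P := P) G) :
    th mono e.1.1 e.1.2 = FreeGroup.of e := by
  have h : ga G e.1.2 = 1 := by rw [← e.2.2]; exact ga_rp_one free _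
  simp only [th, dif_pos e.2.1, h, inv_one, one_smul]
  rfl

/-- **finite presentation** -/
theorem fp_of [Nonempty P] (mono : ∀ (g : G) (a b : P), a ≤ b → g • a ≤ g • b)
    (free : ∀ (g : G) (a : P), g • a = a → g = 1) (fin : Finite (MulAction.orbitRel.Quotient G P))
    (low : ∀ c : P, {a | a ≤ c}.Finite) (hc : Conn P) (hs : SC P) : Group.IsFinitelyPresented G := by
  have hE : {p : P × P | p.1 ≤ p.2 ∧ rp G p.2 = p.2}.Finite :=
    ((fin_rp fin).biUnion fun c _ => (low c).prod (finite_singleton c)).subset fun p hp =>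
      mem_biUnion hp.2 ⟨hp.1, rfl⟩
  have : Finite (Ed (P := P) G) := hE.to_subtype
  let rl : P × P × P → FreeGroup (Ed (P := P) G) := fun t =>
    th mono t.1 t.2.1 * th mono t.2.1 t.2.2 * (th mono t.1 t.2.2)⁻¹
  let T : Set (P × P × P) := {t | t.1 ≤ t.2.1 ∧ t.2.1 ≤ t.2.2 ∧ rp G t.2.2 = t.2.2}
  have hT : T.Finite :=
    ((fin_rp fin).biUnion fun c _ => (low c).prod ((low c).prod (finite_singleton c))).subset
      fun t ht => mem_biUnion ht.2.2 ⟨ht.1.trans ht.2.1, ht.2.1, rfl⟩
  have : Finite (rl '' T) := (hT.image rl).to_subtype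
  let θ : P → P → PresentedGroup (rl '' T) := fun a c => PresentedGroup.mk _ (th mono a c)
  have hθ : Coc θ := fun a b c hab hbc => by
    have : PresentedGroup.mk (rl '' T) (rl ((ga G c)⁻¹ • a, (ga G c)⁻¹ • b, (ga G c)⁻¹ • c)) = 1 :=
      PresentedGroup.one_of_mem ⟨_, ⟨mono _ _ _ hab, mono _ _ _ hbc, by
        show rp G ((ga G c)⁻¹ • c) = (ga G c)⁻¹ • c
        rw [inv_ga, rp_rp]⟩, rfl⟩
    simp only [rl, th_smul mono free _ hab, th_smul mono free _ hbc,
      th_smul mono free _ (hab.trans hbc), map_mul, map_inv] at this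
    exact mul_inv_eq_one.1 this
  let f : Ed (P := P) G → G := fun e => (ga G e.1.1)⁻¹ * ga G e.1.2
  have hf : ∀ a c, a ≤ c → FreeGroup.lift f (th mono a c) = (ga G a)⁻¹ * ga G c := fun a c h => by
    simp only [th, dif_pos h, FreeGroup.lift_apply_of, f, ga_smul free]
    group
  have hr : ∀ r ∈ rl '' T, FreeGroup.lift f r = 1 := by
    rintro _ ⟨⟨a, b, c⟩, ⟨h1, h2, -⟩, rfl⟩
    simp only [rl, map_mul, map_inv, hf _ _ h1, hf _ _ h2, hf _ _ (h1.trans h2)]
    group
  let π : PresentedGroup (rl '' T) →* G := PresentedGroup.toGroup hr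
  have hπ : ∀ a c, a ≤ c → π (θ a c) = (ga G a)⁻¹ * ga G c := fun a c h => hf a c h
  obtain ⟨ψ0, h0⟩ := hs _ θ hθ
  obtain ⟨a1⟩ := ‹Nonempty P›
  set a0 := rp G a1 with ha0
  let ψ : P → PresentedGroup (rl '' T) := fun c => (ψ0 a0)⁻¹ * ψ0 c
  have hψ : Dev θ ψ := fun a c h => by simp only [ψ, mul_assoc, h0 a c h]
  have hψ0 : ψ a0 = 1 := inv_mul_cancel _
  have hπψ : ∀ c, π (ψ c) = ga G c :=
    Dev.uniq hc (θ := fun a c => (ga G a)⁻¹ * ga G c) (ψ := fun c => π (ψ c)) (ψ' := ga G)
      (fun a c h => by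
        beta_reduce
        rw [← hπ a c h, ← map_mul, hψ a c h]) (fun a c _ => by group) (a := a0)
      (by rw [hψ0, map_one, ha0, ga_rp_one free])
  refine Group.IsFinitelyPresented.of_surjective π
    (fun g => ⟨ψ (g • a0), by rw [hπψ, ga_smul free, ha0, ga_rp_one free, mul_one]⟩)
    ⟨ψ '' {c | rp G c = c}, (fin_rp fin).image _, le_antisymm ?_ ?_⟩
  · refine Subgroup.normalClosure_le_normal ?_
    rintro _ ⟨c, hc, rfl⟩
    show π (ψ c) = 1
    rw [hπψ, ← hc, ga_rp_one free]
  · set N := Subgroup.normalClosure (ψ '' {c | rp G c = c})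
    let m := QuotientGroup.mk' N
    have hm : ∀ c, m (ψ (rp G c)) = 1 := fun c => (QuotientGroup.eq_one_iff _).2
      (Subgroup.subset_normalClosure ⟨_, rp_rp G c, rfl⟩)
    have hg : ∀ (g : G) c, ψ (g • c) = ψ (g • a0) * ψ c := fun g =>
      Dev.uniq hc (θ := θ) (ψ := fun c => ψ (g • c)) (ψ' := fun c => ψ (g • a0) * ψ c)
        (fun a c h => by
          have := hψ _ _ (mono g _ _ h)
          simp only [θ, th_smul mono free g h] at this
          exact this)
        (fun a c h => by rw [mul_assoc, hψ a c h]) (a := a0) (by rw [hψ0, mul_one])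
    let s : G →* _ := MonoidHom.mk' (fun g => m (ψ (g • a0))) fun g h => by
      rw [mul_smul, hg, map_mul]
    have hs : ∀ c, m (ψ c) = s (ga G c) := fun c => by
      conv_lhs => rw [← ga_rp G c, hg, map_mul, hm, mul_one]
      rfl
    have e : s.comp π = m := PresentedGroup.ext fun e => by
      have h1 : (PresentedGroup.of e : PresentedGroup (rl '' T)) = θ e.1.1 e.1.2 := by
        simp only [θ, th_of mono free]; rfl
      rw [h1, MonoidHom.comp_apply, hπ _ _ e.2.1, map_mul, map_inv, ← hs, ← hs, ← hψ _ _ e.2.1,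
        map_mul m (ψ e.1.1), inv_mul_cancel_left]
    intro x hx
    have : m x = 1 := by rw [← e, MonoidHom.comp_apply, MonoidHom.mem_ker.1 hx, map_one]
    exact (QuotientGroup.eq_one_iff _).1 this

end fp

section morse

variable {V W : Type} [Preorder W] [WellFoundedLT W] {top : P → V} {ht : V → W} {o : P}

/-- Morse data (weak form): below the largest cell `D` with top vertex `p`, every face `c` which
misses `p` lies with `b` in a face `j` which misses `p` -/
structure Mw (top : P → V) (ht : V → W) (o : P) : Prop where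
  face : ∀ a b, a ≤ b → top a = top b ∨ ht (top a) < ht (top b)
  base : ∀ c, top c = top o → c = o
  step : ∀ p, (∃ c, top c = p) → p ≠ top o → ∃ D b, top D = p ∧ (∀ c, top c = p → c ≤ D) ∧ b ≤ D ∧
    top b ≠ p ∧ ∀ c, c ≤ D → top c ≠ p → ∃ j, c ≤ j ∧ b ≤ j ∧ j ≤ D ∧ top j ≠ p

theorem Mw.ind (_h : Mw top ht o) {A : P → Prop}
    (H : ∀ c, (∀ a, ht (top a) < ht (top c) → A a) → A c) (c : P) : A c :=
  (InvImage.wf (fun c => ht (top c)) wellFounded_lt).induction c H

theorem Mw.not_lt (h : Mw top ht o) (c : P) : ¬ ht (top c) < ht (top o) := by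
  induction c using h.ind with
  | H c ih =>
    intro hc
    obtain ⟨D, b, hD, -, hb, hb', -⟩ := h.step _ ⟨c, rfl⟩ fun e => lt_irrefl _ (e ▸ hc)
    have := (h.face b D hb).resolve_left (hD ▸ hb')
    rw [hD] at this
    exact ih b this (this.trans hc)

theorem Mw.conn (h : Mw top ht o) : Conn P := by
  intro A hA
  have : ∀ c, A c ↔ A o := fun c => by
    induction c using h.ind with
    | H c ih =>
      by_cases e : top c = top o
      · rw [h.base c e]
      obtain ⟨D, b, hD, hle, hb, hb', -⟩ := h.step _ ⟨c, rfl⟩ e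
      have := (h.face b D hb).resolve_left (hD ▸ hb')
      rw [hD] at this
      rw [hA c D (hle c rfl), ← hA b D hb, ih b this]
  exact fun a b ha => (this b).2 ((this a).1 ha)

theorem Mw.sc (h : Mw top ht o) : SC P := by
  classical
  intro Γ _ θ hθ
  have : Nonempty P := ⟨o⟩
  choose! D b hD hle hb hb' hj using h.step
  have hlt : ∀ c a, top c ≠ top o → a ≤ D (top c) → top a ≠ top c → ht (top a) < ht (top c) :=
    fun c a e ha ha' => by
      have := (h.face a _ ha).resolve_left (by rw [hD _ ⟨c, rfl⟩ e]; exact ha')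
      rwa [hD _ ⟨c, rfl⟩ e] at this
  let wf := InvImage.wf (fun c => ht (top c)) (wellFounded_lt (α := W))
  let ψ : P → Γ := wf.fix fun c ih => if e : top c = top o then 1 else
    ih (b (top c)) (hlt c _ e (hb _ ⟨c, rfl⟩ e) (hb' _ ⟨c, rfl⟩ e)) * θ (b (top c)) (D (top c)) *
      (θ c (D (top c)))⁻¹
  have hψ : ∀ c, top c ≠ top o →
      ψ c = ψ (b (top c)) * θ (b (top c)) (D (top c)) * (θ c (D (top c)))⁻¹ := fun c e => by
    simp only [ψ]
    rw [WellFounded.fix_eq, dif_neg e]
  refine ⟨ψ, fun a c => ?_⟩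
  induction c using h.ind generalizing a with
  | H c ih =>
    intro hac
    by_cases e : top c = top o
    · have hc := h.base c e
      subst hc
      have ha := h.base a ((h.face a c hac).resolve_right (h.not_lt a))
      subst ha
      have := hθ a a a le_rfl le_rfl
      rw [mul_eq_left.1 this, mul_one]
    have hc := hle _ ⟨c, rfl⟩ e c rfl
    rw [hψ c e, eq_mul_inv_iff_mul_eq, mul_assoc, hθ a c _ hac hc]
    by_cases e' : top a = top c
    · rw [hψ a (e' ▸ e), e', inv_mul_cancel_right]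
    · obtain ⟨j, h1, h2, h3, h4⟩ := hj _ ⟨c, rfl⟩ e a (hac.trans hc) e'
      have hl := hlt c j e h3 h4
      rw [← hθ a j _ h1 h3, ← hθ _ j _ h2 h3, ← mul_assoc, ← mul_assoc, ih j hl _ h1, ih j hl _ h2]

/-- **finite presentation from Morse data** -/
theorem Mw.fp {G : Type} [Group G] [MulAction G P] (h : Mw top ht o)
    (mono : ∀ (g : G) (a b : P), a ≤ b → g • a ≤ g • b)
    (free : ∀ (g : G) (a : P), g • a = a → g = 1) (fin : Finite (MulAction.orbitRel.Quotient G P))
    (low : ∀ c : P, {a | a ≤ c}.Finite) : Group.IsFinitelyPresented G :=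
  haveI : Nonempty P := ⟨o⟩
  fp_of mono free fin low h.conn h.sc

end morse

end Crest.Agent.N255.Fp

end
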